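import Vale.Agent.P253K.O3
import Vale.Agent.P253K.O4
import Vale.Agent.P253K.O5
import Vale.Agent.P253H.Main

/-! The core, localized in a chart of the target. -/

namespace Vale.Agent.P253.K

open Complex Matrix Metric Set Filter Topology MeasureTheory
open scoped ContDiff ComplexConjugate ComplexOrder ENNReal Manifold

variable {n m N : ℕ} {X : Type} [TopologicalSpace X] [ChartedSpace (E n) X]
  [IsManifold 𝓘(ℂ, E n) ω X] {G : X → E n → M n} {W Ω : Set (E m)} {ψ : E m → X}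

section

variable {h : X → E N} {Φ : E m → E N}

theorem T_lim (hS : Std G h) (hW : IsOpen W) (hΦ : DifferentiableOn ℂ Φ W) (hψ : HolOn n ψ Ω)
    (he : ∀ z ∈ Ω, h (ψ z) = Φ z) {x : ℕ → E m} (hx : ∀ k, x k ∈ Ω) {z : E m} (hz : z ∈ W)
    (h1 : Tendsto x atTop (𝓝 z)) {p : X} (h2 : Tendsto (fun k => ψ (x k)) atTop (𝓝 p)) :
    ∃ r χ, 0 < r ∧ (HolOn n χ (ball z r) ∧ ball z r ⊆ W ∧ ∀ w ∈ ball z r, h (χ w) = Φ w) ∧
      ∀ᶠ k in atTop, χ (x k) = ψ (x k) := by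
  obtain ⟨R, V, hR, hp, hr⟩ := retr hS p
  have c : ContinuousAt Φ z := hΦ.continuousOn.continuousAt (hW.mem_nhds hz)
  have e : Φ z = h p := tendsto_nhds_unique (c.tendsto.comp h1)
    (((hS.hol.continuous.tendsto p).comp h2).congr fun k => he _ (hx k))
  obtain ⟨r, r0, hB⟩ := Metric.mem_nhds_iff.1
    (inter_mem (hW.mem_nhds hz) (c.preimage_mem_nhds (hR.op.mem_nhds (e ▸ hp))))
  have hH : HolOn n (R ∘ Φ) (ball z r) := ⟨isOpen_ball, fun w hw => ((hR.at (hB hw).2).comp w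
    (mdifferentiableAt_iff_differentiableAt.2
      (hΦ.differentiableAt (hW.mem_nhds (hB hw).1)))).mdifferentiableWithinAt⟩
  obtain ⟨k, k1, k2⟩ :=
    ((h1.eventually (ball_mem_nhds z r0)).and (h2.eventually hr.eventually_nhds)).exists
  have a1 : AnalyticOnNhd ℂ (h ∘ R ∘ Φ) (ball z r) :=
    P278F.analyticOnNhd_of_differentiableOn isOpen_ball fun w hw =>
      (hH.comp_diff hS.hol hw).differentiableWithinAt
  have a2 : AnalyticOnNhd ℂ Φ (ball z r) :=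
    P278F.analyticOnNhd_of_differentiableOn isOpen_ball (hΦ.mono fun w hw => (hB hw).1)
  refine ⟨r, R ∘ Φ, r0, ⟨hH, fun w hw => (hB hw).1,
    a1.eqOn_of_preconnected_of_eventuallyEq a2 (convex_ball z r).isPreconnected k1 ?_⟩, ?_⟩
  · filter_upwards [hψ.op.mem_nhds (hx k), (hψ.at (hx k)).continuousAt.eventually k2] with w w1 w2
    simp only [Function.comp_apply]
    rw [← he w w1, w2]
  · filter_upwards [h2.eventually hr] with k hk
    rw [Function.comp_apply, ← he _ (hx k), hk]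

theorem touch_len (hS : Std G h) (hW : IsOpen W) (cW : Convex ℝ W)
    (hΦ : DifferentiableOn ℂ Φ W) (hψ : HolOn n ψ Ω) (sub : Ω ⊆ W)
    (he : ∀ z ∈ Ω, h (ψ z) = Φ z) {f b F : ℂ → E m} (hT : Touch Ω f b)
    (hFd : F = fun z => f z + b z) : ∃ (ρ : ℝ) (u : ℂ), 0 < ρ ∧ ‖u‖ = 1 ∧
      (∀ s ∈ Ioo (0 : ℝ) ρ, F (s * u) ∈ Ω) ∧ ∫⁻ s in Ioo (0 : ℝ) ρ,
      ENNReal.ofReal √(nsq (GG G ψ (F (s * u))) fun i => deriv F (s * u) i) < ⊤ := by
  have hF : Differentiable ℂ F := hFd ▸ hT.df.add hT.db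
  have hin : ∀ z ∈ pd 1, F z ∈ Ω := fun z hz => by
    simpa [hFd] using hT.ins 1 ⟨zero_le_one, le_rfl⟩ z (by linarith [(mem_pd.1 hz).1])
      (Or.inr (mem_pd.1 hz).2)
  have h0 : F 0 ∈ W := hFd ▸ touch_conv hT hW cW sub
  have hb : ∀ z ∈ ball (0 : ℂ) 1, F z ∈ W := fun z hz => by
    rcases eq_or_ne z 0 with rfl | k
    · exact h0
    · exact sub (hin z (mem_pd.2 ⟨mem_ball_zero_iff.1 hz, k⟩))
  obtain ⟨s1, s2⟩ := kk_neg hS hψ hF (pd_open 1) hin
  obtain ⟨c, c0, hl⟩ := lowH hS hψ hT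
  obtain ⟨g1, g2⟩ := gg_kahler hS.kae hψ
  have hi := area hψ.op g1 hT
  have e : ∀ z, NN (fun z => GG G ψ z + 1) f b 1 z =
      nsq (GG G ψ (F z) + 1) fun i => deriv F z i :=
    fun z => by simp [NN, hFd, deriv_fun_add (hT.df z) (hT.db z)]
  simp only [e] at hi
  have hv : Differentiable ℂ fun z i => deriv F z i :=
    differentiable_pi.2 fun i => (EuclideanSpace.proj (𝕜 := ℂ) i).differentiable.comp hF.deriv
  have k1 : Sm (pd 1) fun z => GG G ψ (F z) + 1 := ⟨fun i j => (g1.smooth i j).comp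
    (hF.contDiff.restrict_scalars ℝ).contDiffOn hin, fun z hz => g1.pos _ (hin z hz)⟩
  have k2 : Sm (pd 1) fun _ => (1 : M m) := ⟨fun _ _ => contDiffOn_const, fun _ _ => PosDef.one⟩
  have lc : ContinuousOn (fun z => nsq (GG G ψ (F z)) fun i => deriv F z i) (pd 1) :=
    ((core_cont k1 hv.continuous.continuousOn).sub
      (core_cont k2 hv.continuous.continuousOn)).congr fun z _ => by
        simp only [Pi.sub_apply, main_add, add_sub_cancel_right]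
  have l0 : ∀ z, 0 ≤ nsq (GG G ψ (F z)) fun i => deriv F z i := fun z => by
    rw [nsq_eq]
    exact ((g2 _).dotProduct_mulVec_nonneg _).1
  have hd : DifferentiableOn ℂ (Φ ∘ F) (ball 0 1) := hΦ.comp hF.differentiableOn hb
  have ev : ∀ z ∈ pd 1, (fun j => deriv (Φ ∘ F) z j) =
      fun j => fderiv ℂ (h ∘ ψ) (F z) (deriv F z) j := fun z hz => by
    have e1 : h ∘ ψ =ᶠ[𝓝 (F z)] Φ := mem_of_superset (hψ.op.mem_nhds (hin z hz)) he
    rw [e1.fderiv_eq, ((hΦ.differentiableAt (hW.mem_nhds (sub (hin z hz)))).hasFDerivAt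
      |>.comp_hasDerivAt z (hF z).hasDerivAt).deriv]
  obtain ⟨δ, ρ, d0, r0, r1, a, -, j1, j2⟩ := coreP s1 s2 c0 (by simpa only [hFd] using hl)
    (v := fun z j => deriv (Φ ∘ F) z j) (differentiableOn_pi.2 fun i =>
      (EuclideanSpace.proj (𝕜 := ℂ) i).differentiable.comp_differentiableOn (hd.deriv isOpen_ball))
    lc (fun z hz => ev z hz ▸ (dom_iff hS hψ (hin z hz) _ _).2 le_rfl)
    (lt_of_le_of_lt (lintegral_mono fun z => ENNReal.ofReal_le_ofReal (by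
      rw [main_add]
      exact le_add_of_nonneg_right (nsq_nonneg PosDef.one _))) hi)
  have sb : pd ρ ⊆ pd 1 := fun z k => mem_pd.2 ⟨(mem_pd.1 k).1.trans_le r1, (mem_pd.1 k).2⟩
  obtain ⟨u, u1, u2⟩ := ray r0 d0 (lc.mono sb) (fun z _ => l0 z) (lt_of_le_of_lt
    (lintegral_mono_ae (by
      filter_upwards [j1, ae_restrict_mem (pd_open ρ).measurableSet] with z k1 k2
      rw [ev z (sb k2)] at k1
      exact ENNReal.ofReal_le_ofReal (mul_le_mul_of_nonneg_right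
        ((dom_iff hS hψ (hin z (sb k2)) _ _).1 k1) (by positivity)))) j2)
  have hs : ∀ s ∈ Ioo (0 : ℝ) ρ, F (s * u) ∈ Ω := fun s hs =>
    hin _ (sb (mem_pd.2 ⟨by
      rw [norm_mul, u1, mul_one, Complex.norm_real, Real.norm_of_nonneg hs.1.le]
      exact hs.2, mul_ne_zero (Complex.ofReal_ne_zero.2 hs.1.ne') (norm_pos_iff.1 (u1 ▸ one_pos))⟩))
  exact ⟨ρ, u, r0, u1, hs, u2⟩

end

variable {Y : Type} [TopologicalSpace Y] [T2Space Y] [ChartedSpace (E N) Y]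
  [IsManifold 𝓘(ℂ, E N) ω Y] {h : X → Y} {Φ : E m → Y}

theorem touch_ray (hS : StdY N G h) (hc : MComplete G) (cW : Convex ℝ W) (hΦ : HolOn N Φ W)
    (h1 : Lf n h Φ W ψ Ω) {f b : ℂ → E m} (hT : Touch Ω f b) :
    ∃ r χ, 0 < r ∧ Lf n h Φ W χ (ball (f 0 + b 0) r) ∧
      ∃ᶠ ζ in 𝓝[≠] (0 : ℂ), χ (f ζ + b ζ) = ψ (f ζ + b ζ) := by
  classical
  have hq := touch_conv hT hΦ.op cW h1.sub
  obtain ⟨q, hqd⟩ : ∃ q, q = f 0 + b 0 := ⟨_, rfl⟩
  obtain ⟨σ, σ0, hσ⟩ := Metric.isOpen_iff.1 (hΦ.open_pre (Φ (f 0 + b 0))) _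
    ⟨hq, mem_chart_source (E N) _⟩
  obtain ⟨e, e0, hT'⟩ := touch_loc hT σ0
  rw [← hqd] at hq hσ hT' ⊢
  have hO : ∀ z ∈ Ω ∩ ball q σ, ψ z ∈ preO (N := N) hS.hol.continuous (Φ q) := fun z hz => by
    show h (ψ z) ∈ (chartAt (E N) (Φ q)).source
    rw [h1.eq z hz.1]
    exact (hσ hz.2).2
  have p0 : preO (N := N) hS.hol.continuous (Φ q) :=
    ⟨_, hO _ (hT'.ins 0 ⟨le_rfl, zero_le_one⟩ 0 (by simp) (Or.inl one_pos))⟩
  obtain ⟨θ, hθ⟩ : ∃ θ : E m → preO (N := N) hS.hol.continuous (Φ q),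
      ∀ z ∈ Ω ∩ ball q σ, (θ z).1 = ψ z :=
    ⟨fun z => if k : ψ z ∈ preO (N := N) hS.hol.continuous (Φ q) then ⟨ψ z, k⟩ else p0,
      fun z hz => by simp only [dif_pos (hO z hz)]⟩
  have o1 : IsOpen (Ω ∩ ball q σ) := h1.hol.op.inter isOpen_ball
  have hψ : HolOn n ψ (Ω ∩ ball q σ) := ⟨o1, h1.hol.hol.mono inter_subset_left⟩
  have hθ' : HolOn n θ (Ω ∩ ball q σ) := hol_val.2 ⟨o1, hψ.hol.congr hθ⟩
  have hΦ' : DifferentiableOn ℂ (chartAt (E N) (Φ q) ∘ Φ) (ball q σ) := fun w hw =>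
    (hΦ.chart (hσ hw).1 (hσ hw).2).differentiableWithinAt
  have he : ∀ z ∈ Ω ∩ ball q σ, chartAt (E N) (Φ q) (h (θ z).1) = (chartAt (E N) (Φ q) ∘ Φ) z :=
    fun z hz => by rw [hθ z hz, h1.eq z hz.1, Function.comp_apply]
  obtain ⟨F, hFd⟩ : ∃ F : ℂ → E m, F = fun z => f (e * z) + b (e * z) := ⟨_, rfl⟩
  have hF : Differentiable ℂ F := hFd ▸
    (hT.df.comp (differentiable_id.const_mul _)).add (hT.db.comp (differentiable_id.const_mul _))
  obtain ⟨ρ, u, r0, u1, hs, u2⟩ := touch_len (res_std hS (Φ q)) isOpen_ball (convex_ball q σ) hΦ'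
    hθ' inter_subset_right he hT' (F := F) (by
      rw [hFd]
      funext z
      rw [add_assoc, ← add_smul]
      simp)
  obtain ⟨p, hp⟩ := finH hc hψ hF r0 u1 hs (by
    refine lt_of_eq_of_lt (setLIntegral_congr_fun measurableSet_Ioo fun s k => ?_) u2
    simp only [GG_val θ (mem_of_superset (o1.mem_nhds (hs s k)) hθ)])
  have t1 : Tendsto (fun k : ℕ => ρ / (k + 2 : ℝ)) atTop (𝓝 0) :=
    tendsto_const_nhds.div_atTop (tendsto_natCast_atTop_atTop.atTop_add tendsto_const_nhds)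
  have t2 : Tendsto (fun k : ℕ => F ((ρ / (k + 2) : ℝ) * u)) atTop (𝓝 q) := by
    have : F 0 = q := by simp [hFd, hqd]
    refine this ▸ (hF.continuous.tendsto 0).comp ?_
    simpa using ((continuous_ofReal.tendsto 0).comp t1).mul_const u
  have hx : ∀ k : ℕ, F ((ρ / (k + 2) : ℝ) * u) ∈ Ω ∩ ball q σ := fun k => hs _ ⟨by positivity,
    div_lt_self r0 (by linarith [(Nat.cast_nonneg k : (0 : ℝ) ≤ k)])⟩
  have e1 : Φ q = h p := tendsto_nhds_unique ((hΦ.at hq).continuousAt.tendsto.comp t2)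
    (((hS.hol.continuous.tendsto p).comp hp).congr fun k => h1.eq _ (hx k).1)
  have pO : p ∈ preO (N := N) hS.hol.continuous (Φ q) := by
    show h p ∈ (chartAt (E N) (Φ q)).source
    rw [← e1]
    exact mem_chart_source (E N) _
  obtain ⟨r, χ, k1, ⟨k2, k3, k4⟩, k5⟩ := T_lim (res_std hS (Φ q)) isOpen_ball hΦ' hθ' he hx
    (mem_ball_self σ0) t2 (p := ⟨p, pO⟩)
    (tendsto_subtype_rng.2 (hp.congr fun k => (hθ _ (hx k)).symm))
  refine ⟨r, fun w => (χ w).1, k1, ⟨hol_val.1 k2, fun w hw => (hσ (k3 hw)).1, fun w hw =>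
    (chartAt (E N) (Φ q)).injOn (χ w).2 (hσ (k3 hw)).2 (k4 w hw)⟩, ?_⟩
  have t3 : Tendsto (fun k : ℕ => (e : ℂ) * (((ρ / (k + 2) : ℝ) : ℂ) * u)) atTop (𝓝[≠] 0) := by
    refine tendsto_nhdsWithin_iff.2 ⟨?_, Eventually.of_forall fun k => ?_⟩
    · simpa using (((continuous_ofReal.tendsto 0).comp t1).mul_const u).const_mul (e : ℂ)
    · exact mul_ne_zero (Complex.ofReal_ne_zero.2 e0.ne') (mul_ne_zero
        (Complex.ofReal_ne_zero.2 (by positivity)) (norm_pos_iff.1 (u1 ▸ one_pos)))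
  refine t3.frequently (k5.frequently.mono fun k hk => ?_)
  have k6 := (congrArg Subtype.val hk).trans (hθ _ (hx k))
  simpa only [hFd] using k6

end Vale.Agent.P253.K
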