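import Vale.Agent.P253K.P
import Vale.Agent.P253K.F2
import Vale.Agent.P253K.F3
import Vale.Agent.P253K.T
import Vale.Agent.P253K.Stmt

/-! Hartogs extension for manifolds with a holomorphic immersion. -/

namespace Vale.Agent.P253.K

open Complex Matrix Metric Set Filter Topology MeasureTheory
open scoped ContDiff ComplexConjugate ComplexOrder ENNReal Manifold

variable {n N : ℕ} {X Y : Type} [TopologicalSpace X] [ChartedSpace (E n) X]
  [IsManifold 𝓘(ℂ, E n) ω X] [T2Space X] [TopologicalSpace Y] [T2Space Y] [ChartedSpace (E N) Y]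
  [IsManifold 𝓘(ℂ, E N) ω Y] {G : X → E n → M n} {h : X → Y}

theorem JM_le (z : E 2) (i : Fin 2) : ‖z i‖ ≤ ‖z‖ := PiLp.norm_apply_le z i

theorem JM_bdd : Bornology.IsBounded bidisc := by
  refine (isBounded_closedBall (x := (0 : E 2)) (r := 2)).subset fun z hz => ?_
  rw [mem_closedBall_zero_iff, ← hfill_eta z, hfill_p]
  refine (norm_add_le _ _).trans ?_
  simp only [norm_smul, EuclideanSpace.norm_single, norm_one, mul_one]
  linarith [hz.1, hz.2]

theorem hartogs_rel (hY : StdY N G h) (hc : MComplete G) : HartogsRel n N h := by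
  intro r r0 r1 φ Φ hφ hΦ h2
  have hS := li hY
  obtain ⟨b1, b2, b3⟩ := bidisc_open
  have h3 : Lf n h Φ bidisc φ (hartogsFig r) := ⟨⟨b3 r, hφ⟩, fun w hw => ⟨hw.1, hw.2.1⟩, h2⟩
  obtain ⟨ψ, k1, k2⟩ := finalF hS r0 r1 h3 fun τ ψ t0 t1 a1 a2 => by
    obtain ⟨d, d0, d1, d2⟩ : ∃ d : ℝ, 0 < d ∧ d ≤ r / 2 ∧ d ≤ 1 - τ :=
      ⟨min (r / 2) (1 - τ), lt_min (by linarith) (by linarith), min_le_left _ _, min_le_right _ _⟩
    have db := fun z (hz : z ∈ PD τ) => dl_ball hS two_pos JM_bdd a1 hz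
    obtain ⟨χ, a3, a4⟩ := stepF hS r0 t0 (s := 1 - r / 2) (by linarith) (by linarith) d0
      (by linarith) h3 a1 a2 fun z hz hs => by
        have a5 := minD (dl_cont hS two_pos JM_bdd a1 (PD_oc τ).2) (fun z hz => (db z hz).1)
          (fun z a hin => dl_psh hS two_pos JM_bdd
            (fun _ _ _ _ c1 c2 => touch_ray hY hc b2 ⟨b1, hΦ⟩ c1 c2) a1 (PD_oc τ).2 hin) (w := z 0)
          (s := 1 - r / 2) (by linarith) d0
          (fun ζ hζ => ⟨by rw [hfill_0]; exact hz.1, by rw [hfill_1]; linarith⟩)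
          (fun ζ hζ => by
            have c1 : ball (hfill_p (z 0) ζ) d ⊆ hartogsFig r := fun w hw => by
              have c2 := (JM_le (w - hfill_p (z 0) ζ) 0).trans_lt (mem_ball_iff_norm.1 hw)
              have c3 := (JM_le (w - hfill_p (z 0) ζ) 1).trans_lt (mem_ball_iff_norm.1 hw)
              rw [PiLp.sub_apply, hfill_0] at c2
              rw [PiLp.sub_apply, hfill_1] at c3
              have c4 := abs_lt.1 ((abs_norm_sub_norm_le _ _).trans_lt c2)
              have c5 := abs_lt.1 ((abs_norm_sub_norm_le _ _).trans_lt c3)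
              exact ⟨by linarith [hz.1, c4.2], by linarith [c5.2], Or.inr (by linarith [c5.1])⟩
            have c6 := le_dl two_pos JM_bdd (h3.mono isOpen_ball c1)
            rwa [← agree hS r0 t0 h3 a1 a2
              ⟨⟨by rw [hfill_0]; exact hz.1, by rw [hfill_1]; linarith⟩, c1 (mem_ball_self d0)⟩] at c6)
          (z 1) hs
        rw [hfill_eta] at a5
        obtain ⟨-, χ, a6, a7⟩ := db z hz
        exact ⟨χ, a6.mono isOpen_ball (ball_subset_ball a5), a7⟩
    exact ⟨_, χ, by linarith, by linarith, a3, a4⟩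
  exact ⟨ψ, k1.hol.hol, k2, k1.eq⟩

end Vale.Agent.P253.K
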